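import Vale.Agent.P032X.H286.Q73
import Vale.Agent.P032X.H820.K.Pipe
import Vale.Agent.P032X.H61.SymG

/-!
# P032: common header of the certificate files (73 points, 73 word points)

* `TCm` : the table of coordinates, `Qs`, `qs_nil`, `qs_split` : splitting of queries into cases.
-/

namespace Vale.Agent.P032.H286.E

open Vale.Agent.P032.H820.K Vale.Agent.P032.H357.MK

/-- the table of coordinates (H820/tools/tcT_txt) -/
def TCm : ℕ :=
  0x6a88886a698868888869886877888688887788869688a688889688a6a788a88888a788a87a8899888a88887a8899888a7979787987799779987989797978787887789778987889787987788787879787988789877997789787979797989789977998789887989798989889987989788987899789988989897988887978888878878888879788889798888898898888898888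

/-! ### splitting of queries -/

/-- a query with further units -/
def Qs (e : List (List ℕ)) (u : List ℕ) : Prop := Qy 73 73 TBm (e ++ u.map fun l => [l])

theorem qs_nil {e : List (List ℕ)} (h : Qs e []) : Qy 73 73 TBm e := by
  unfold Qs at h
  rw [List.map_nil, List.append_nil] at h
  exact h

theorem lv_xor {NP NW : ℕ} {nbr : ℕ → ℕ → ℕ} (M : Md 2 NP NW nbr) (l : ℕ) : lv M l ∨ lv M (Nat.xor l 1) := by
  unfold lv
  rcases Nat.mod_two_eq_zero_or_one l with h | h
  · have e : Nat.xor l 1 = l + 1 := Nat.xor_one_of_even (Nat.even_iff.2 h)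
    rw [e]
    have e1 : (l + 1) / 2 = l / 2 := by omega
    have e2 : (l + 1) % 2 = 1 := by omega
    rw [e1, if_pos h, if_neg (by omega)]
    exact em _
  · have e : Nat.xor l 1 = l - 1 := Nat.xor_one_of_odd (Nat.odd_iff.2 h)
    rw [e]
    have e1 : (l - 1) / 2 = l / 2 := by omega
    rw [e1, if_neg (by omega), if_pos (by omega)]
    exact (em _).symm

/-- **two cases** -/
theorem qs_split {e : List (List ℕ)} {u : List ℕ} (l : ℕ) (h1 : Qs e (l :: u)) (h0 : Qs e (Nat.xor l 1 :: u)) :
    Qs e u := by
  intro M hM
  have key : ∀ l', lv M l' → ∀ c ∈ e ++ (l' :: u).map (fun l => [l]), Ho M c := by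
    intro l' hl c hc
    rcases List.mem_append.1 hc with hc | hc
    · exact hM c (List.mem_append_left _ hc)
    · rw [List.map_cons] at hc
      rcases List.mem_cons.1 hc with rfl | hc
      · exact ⟨l', List.mem_singleton_self _, hl⟩
      · exact hM c (List.mem_append_right _ hc)
  rcases lv_xor M l with h | h
  · exact h1 M (key _ h)
  · exact h0 M (key _ h)

end Vale.Agent.P032.H286.E
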