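import Vale.Agent.P032X.H286.X73
import Vale.Agent.P032X.H892.Fam

/-!
# P032: trees of words of the blocks X1 and (5, 4), 73 points

* `d2_of` : the tree of a list of words of X1 (equal colours),
* `dc_of` : the tree of a list of words of a block (5, 4) with the condition `Q`,
* `dq_of` : the tree of a list of patterns which are certified with clauses of a function (`CrtF`, tables `TBm`, `TCm`).
-/

namespace Vale.Agent.P032.H286.E

open Vale.Agent.P032.H820.K Vale.Agent.P032.H357.MK Vale.Agent.P032.H61 Vale.Agent.P032.H357 Vale.Agent.P032.H892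
open Vale.Agent.P032.H61.TF Vale.Agent.P032.BlkE Vale.Agent.P032.BlkV Vale.Agent.P032.BlkS Vale.Agent.P032.Fam
open Vale.Agent.P032.TW Vale.Agent.P032.H357.SymV

/-- **the tree of a list of words of X1** -/
theorem d2_of {t1 : PTr} (ht1 : D1 t1) {xs : List ℕ} (hx : ∀ x ∈ xs, Gp 73 TF.TC x) {t : PTr} {L : List (List ℕ)}
    (h : chT 73 73 TCm t L = true) (hL : ∀ P ∈ L, Wx (EX1w xs) t1 (n5eC 73 TF.TB) P) : D2 t := by
  rw [tcm_eq] at h
  refine (PTr.all_of (acc := []) fun x hx' => ?_).1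
  obtain ⟨h1, h2⟩ := chL_spec h x hx'
  obtain ⟨cs, hq⟩ := hL _ h1
  rw [tbm_eq] at hq
  exact ⟨x1_words ht1 hx h2 hq, h2⟩

/-- **the tree of a list of words of a block (5, 4)** -/
theorem dc_of {Q : (ℂ → Set (Fin 6)) → Prop} (hQ : BlkE.Inv Q) {t1 : PTr} (ht1 : DQ Q t1) {xs : List ℕ}
    (hx : ∀ x ∈ xs, Gp 73 TF.TC x) {f : ℕ → List ℕ}
    (hf : ∀ F (M : Md 2 73 73 (nbf 2 TF.TB)), CW Q 5 4 73 TF.TC F → Mdl (tb (le_refl 73)) F M → ∀ c, Ho M (f c))
    {t : PTr} {L : List (List ℕ)} (h : chT 73 73 TCm t L = true) (hL : ∀ P ∈ L, Wx (EXw xs) t1 f P) :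
    DC (CW Q 5 4 73 TF.TC) t := by
  rw [tcm_eq] at h
  refine (PTr.all_of (acc := []) fun x hx' => ?_).1
  obtain ⟨h1, h2⟩ := chL_spec h x hx'
  obtain ⟨cs, hq⟩ := hL _ h1
  rw [tbm_eq] at hq
  exact ⟨words hQ ht1 hx hf h2 hq, h2⟩

section
variable {t tr : PTr} {L : List (List ℕ)}

/-- patterns with images of earlier patterns, no condition -/
theorem d1_im (h : chT 73 73 TCm t L = true) (hL : ∀ P ∈ L, CrtF 73 73 TBm TCm (fam1 (imX 5 tr)) P)
    (htr : D1 tr) : D1 t := by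
  rw [tcm_eq] at h
  rw [tbm_eq, tcm_eq] at hL
  exact tr1 h hL htr

/-- patterns with `N55` and images of earlier patterns -/
theorem dq2_im (h : chT 73 73 TCm t L = true) (hL : ∀ P ∈ L, CrtF 73 73 TBm TCm (fam2 (imX 5 tr)) P)
    (htr : DQ N55 tr) : DQ N55 t := by
  rw [tcm_eq] at h
  rw [tbm_eq, tcm_eq] at hL
  exact tr2 h hL htr

/-- patterns with `N55` -/
theorem dq2_of (h : chT 73 73 TCm t L = true) (hL : ∀ P ∈ L, CrtF 73 73 TBm TCm (fam2 im0) P) : DQ N55 t := by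
  rw [tcm_eq] at h
  rw [tbm_eq, tcm_eq] at hL
  exact tr2' h hL

/-- patterns with both conditions and images of earlier patterns -/
theorem dq3_im (h : chT 73 73 TCm t L = true) (hL : ∀ P ∈ L, CrtF 73 73 TBm TCm (Fam.fam3 (imX 5 tr)) P)
    (htr : DQ Fam.Q3 tr) : DQ Fam.Q3 t := by
  rw [tcm_eq] at h
  rw [tbm_eq, tcm_eq] at hL
  exact tr3 h hL htr

/-- patterns with both conditions -/
theorem dq3_of (h : chT 73 73 TCm t L = true) (hL : ∀ P ∈ L, CrtF 73 73 TBm TCm (Fam.fam3 im0) P) :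
    DQ Fam.Q3 t := by
  rw [tcm_eq] at h
  rw [tbm_eq, tcm_eq] at hL
  exact tr3' h hL

end

end Vale.Agent.P032.H286.E
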