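import Vale.Agent.P032X.H892.Lt

/-!
# P032: queries which use a part of the clauses

* `pick m e` : the clauses of `e` with the numbers of the bits of `m`,
* `qs_pick` : a query for `pick m e` is a query for `e`.
-/

namespace Vale.Agent.P032.Lt

open Vale.Agent.P032.H820.K Vale.Agent.P032.H286.E

/-- the clauses with the numbers of the bits of `m` -/
noncomputable def pick (e : List (List ℕ)) : ℕ → List (List ℕ) :=
  List.rec (fun _ => [])
    (fun c _ ih m => bif Nat.beq (Nat.mod m 2) 1 then c :: ih (Nat.div m 2) else ih (Nat.div m 2)) e

theorem pick_mem (e : List (List ℕ)) : ∀ (m : ℕ) (c : List ℕ), c ∈ pick e m → c ∈ e := by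
  induction e with
  | nil => intro m c h; exact h
  | cons a t ih =>
    intro m c h
    have h' : c ∈ (bif Nat.beq (Nat.mod m 2) 1 then a :: pick t (Nat.div m 2) else pick t (Nat.div m 2)) := h
    cases hb : Nat.beq (Nat.mod m 2) 1 with
    | true =>
      rw [hb, cond_true] at h'
      rcases List.mem_cons.1 h' with h2 | h2
      · exact h2 ▸ List.mem_cons_self
      · exact List.mem_cons_of_mem _ (ih _ _ h2)
    | false =>
      rw [hb, cond_false] at h'
      exact List.mem_cons_of_mem _ (ih _ _ h')

/-- **a query with a part of the clauses** -/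
theorem qs_pick {e : List (List ℕ)} {u : List ℕ} (m : ℕ) (h : Qs (pick e m) u) : Qs e u := by
  intro M hM
  refine h M fun c hc => ?_
  rcases List.mem_append.1 hc with hc | hc
  · exact hM c (List.mem_append_left _ (pick_mem _ _ _ hc))
  · exact hM c (List.mem_append_right _ hc)

end Vale.Agent.P032.Lt
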