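import Vale.Agent.P032X.H286.Row

/-!
# P032: the engine with one mask of dead literals (rows of letters and bits, all rows)
-/

namespace Vale.Agent.P032.H286.E

open Vale.Agent.P032.H820.K

variable {NP NW : ℕ} {nbr : ℕ → ℕ → ℕ} {TB WN : ℕ} {M : Md 2 NP NW nbr} {q : ℕ}

theorem lit_lt {l : ℕ} (h : l < 48) : l / 4 < 6 * 2 ∧ l / 2 % 2 < 2 ∧ l % 2 < 2 ∧ l / 4 < 12 := by omega

theorem sl_add {m a b : ℕ} : Nat.shiftLeft m (a + b) = Nat.shiftLeft (m <<< b) a := by
  simp only [r_sl]
  rw [Nat.shiftLeft_eq, Nat.shiftLeft_eq, Nat.shiftLeft_eq, pow_add]; ring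

theorem pow_bit {b l : ℕ} (h : (1 <<< b).testBit l = true) : l = b := by
  rw [Nat.one_shiftLeft, Nat.testBit_two_pow, decide_eq_true_eq] at h; exact h.symm

/-- the own word block of a letter -/
theorem w_own {x l : ℕ} (hx : x < NW) (hl : l < 48) (h : M.W x (l / 4) (l / 2 % 2) (l % 2) = q) :
    KW M q (Nat.shiftLeft (Nat.lor (Nat.shiftLeft 1 (Nat.add 48 l)) (ent W6 48 M48 (Nat.shiftRight l 1))) (wb NP x)) := by
  rw [wb_eq]
  obtain ⟨a1, a2, a3, a4⟩ := lit_lt hl
  refine KW.shift (by omega) fun i hi => ?_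
  rw [r_lor, Nat.testBit_or, Bool.or_eq_true] at hi
  rw [hq_wd hx]
  rcases hi with hi | hi
  · have e : i = 48 + l := pow_bit (by simpa only [r_sl, r_add] using hi)
    rw [e, wd_nW hl]
    exact ⟨by omega, not_not.2 h⟩
  · have h1 : i < 48 := (and48 hi).1
    refine ⟨by omega, ?_⟩
    rw [wd_W h1]
    obtain ⟨b1, b2, b3, b4⟩ := lit_lt h1
    have e0 : Nat.shiftRight l 1 = l / 2 := by rw [r_sr, Nat.shiftRight_one]
    rw [e0] at hi
    have h2 := imB_iff.1 (allB_iff.1 (allB_iff.1 w6_tab (l / 2) (by omega)) i h1) hi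
    simp only [Bool.or_eq_true, Bool.and_eq_true, Nat.beq_eq] at h2
    obtain ⟨h3, h4⟩ := h2
    intro h5
    rcases h4 with h4 | h4
    · have h6 := M.w60 (x := x) (t := l / 4) (sd := l / 2 % 2) (io := l % 2) (io' := i % 2) hx a1 a2 a3 b3
      apply h6
      have e1 : ad 2 (l / 4) 2 = i / 4 := by rw [ad_eq2, h4]; congr 1; omega
      rw [e1, h, ← h3, h5]
    · have h6 := M.w60 (x := x) (t := i / 4) (sd := l / 2 % 2) (io := i % 2) (io' := l % 2) hx b1 a2 b3 a3
      apply h6
      have e1 : ad 2 (i / 4) 2 = l / 4 := by rw [ad_eq2, h4]; omega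
      rw [e1, h, ← h3, h5]

/-- the word blocks of the neighbours -/
theorem w_nb (H : Tab NP NW nbr TB WN) {x l : ℕ} (hx : x < NW) (hl : l < 48)
    (h : M.W x (l / 4) (l / 2 % 2) (l % 2) = q) :
    KW M q (Nat.shiftLeft (ent WN (Nat.mul 128 NW) (Nat.sub (Nat.shiftLeft 1 (Nat.mul 128 NW)) 1) x)
        (Nat.add (wb NP 0) (Nat.mul 2 (Nat.shiftRight l 1)))) := fun n hn => by
  obtain ⟨a1, a2, a3, a4⟩ := lit_lt hl
  have e0 : Nat.shiftRight l 1 = l / 2 := by rw [r_sr, Nat.shiftRight_one]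
  have e1 : Nat.sub (Nat.shiftLeft 1 (Nat.mul 128 NW)) 1 = 2 ^ (128 * NW) - 1 := by
    simp only [r_sub, r_sl, r_mul]; rw [Nat.one_shiftLeft]
  rw [e0, e1, wb_eq] at hn
  simp only [r_sl, r_add, r_mul] at hn
  rw [Nat.testBit_shiftLeft, Bool.and_eq_true, decide_eq_true_eq] at hn
  obtain ⟨h1, h2⟩ := hn
  obtain ⟨y, hy, h3, s, hs, h4⟩ := H.wn x hx _ h2
  have h5 : ∃ i < 2, n = 128 * (NP + 1 + y) + (2 * (l / 2) + i) := by
    rcases h3 with h3 | h3
    · exact ⟨0, by norm_num, by omega⟩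
    · exact ⟨1, by norm_num, by omega⟩
  obtain ⟨i, hi, h6⟩ := h5
  have e2 : n / 128 = NP + 1 + y := by omega
  have e3 : n % 128 = 2 * (l / 2) + i := by omega
  refine ⟨by unfold SS; omega, ?_⟩
  rw [e2, e3, hq_wd hy, wd_W (by omega)]
  have e4 : (2 * (l / 2) + i) / 4 = l / 4 := by omega
  have e5 : (2 * (l / 2) + i) / 2 % 2 = l / 2 % 2 := by omega
  have e6 : (2 * (l / 2) + i) % 2 = i := by omega
  rw [e4, e5, e6]
  have h7 := M.wpair (x := x) (s := s) (t := l / 4) (sd := l / 2 % 2) (io := l % 2) (io' := i) hx (by omega) a1 a2 a3 hi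
    (by rw [h4]; exact hy)
  rw [h4, h] at h7
  exact fun h8 => h7 h8.symm

/-- cells excluded by a letter -/
theorem w_c (hNP : NW ≤ NP) (hq6 : q < 6) {x l : ℕ} (hx : x < NW) (hl : l < 48)
    (h : M.W x (l / 4) (l / 2 % 2) (l % 2) = q) :
    KW M q (Nat.shiftLeft (ent WC 96 M96 l) (Nat.mul 128 x)) := by
  obtain ⟨a1, a2, a3, a4⟩ := lit_lt hl
  rw [r_mul]
  refine piece96 (by omega) hq6 (fun i hi => (and96 hi).1) fun i hi => ?_
  have h2 := imB_iff.1 (allB_iff.1 (allB_iff.1 wc_tab l hl) i (and96 hi).1) hi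
  obtain ⟨hk, hj, hj'⟩ := cell_lt (Nat.mod_lt i (by norm_num : 0 < 48))
  have h4 := M.wb (x := x) (t := l / 4) (sd := l / 2 % 2) (io := l % 2) hx a1 a2 a3 hk hj h2
  rw [h] at h4
  exact h4

theorem gk_lt {sd io : ℕ} : gk sd io < 4 := by
  unfold gk; cases Nat.beq io 0 <;> cases Nat.beq sd 1 <;> decide

theorem gt_lt {sd t : ℕ} (h : t < 6 * 2) : gt 2 sd t < 6 * 2 := by
  unfold gt; cases Nat.beq sd 1
  · exact ad_lt (by norm_num)
  · exact h

theorem gc_spec {l : ℕ} (hl : l < 48) : ent GC 6 63 l < 48 ∧ ent GC 6 63 l / 12 = gk (l / 2 % 2) (l % 2) ∧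
    ent GC 6 63 l % 12 = gt 2 (l / 2 % 2) (l / 4) := by
  have h := allB_iff.1 gc_tab l hl
  rw [Nat.beq_eq] at h
  have h1 := gk_lt (sd := l / 2 % 2) (io := l % 2)
  have h2 := gt_lt (sd := l / 2 % 2) (t := l / 4) (by omega)
  omega

/-- **The row of a letter (own colour).** -/
theorem wwin_KW (H : Tab NP NW nbr TB WN) (hq6 : q < 6) {x l : ℕ} (hx : x < NW) (hl : l < 48)
    (h : M.W x (l / 4) (l / 2 % 2) (l % 2) = q) : KW M q (wwin NP NW TB WN x l) := by
  obtain ⟨a1, a2, a3, a4⟩ := lit_lt hl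
  have hNP := M.hNW
  unfold wwin
  refine KW.lor (w_own hx hl h) (KW.lor (w_nb H hx hl h) (KW.lor (w_c hNP hq6 hx hl h)
    (KW.br (fun h1 => ?_) (fun _ => KW.zero))))
  rw [lt_iff] at h1
  have e0 : Nat.shiftRight l 2 = l / 4 := by rw [r_sr, Nat.shiftRight_eq_div_pow]
  rw [e0] at h1 ⊢
  obtain ⟨h2, h3, h4⟩ := gc_spec hl
  rcases H.nb (x := x) (s := l / 4) (by omega) a4 with h5 | ⟨h5, h6, h7⟩
  · omega
  refine vwin_KW H h1 h2 hq6 ?_
  rw [h3, h4, ← h6]
  have h8 := M.glue (x := x) (t := l / 4) (sd := l / 2 % 2) (io := l % 2) hx a1 a2 a3 (by rw [h6]; exact h5)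
  rw [h] at h8
  exact h8

/-- **The row of a place of a point.** -/
theorem prow_KW (H : Tab NP NW nbr TB WN) (hq6 : q < 6) {x l : ℕ} (hx : x < NP) (h : pt M q x l) :
    KW M q (prow NP NW TB x l) := by
  unfold prow
  refine KW.br (fun h1 => ?_) (fun h1 => KW.br (fun h2 => ?_) (fun h2 => KW.br (fun h3 => ?_) (fun h3 => ?_)))
  · rw [lt_iff] at h1
    exact vwin_KW H hx h1 hq6 ((pt_V h1).1 h)
  · rw [ltf_iff] at h1
    rw [lt_iff] at h2
    rw [r_sub]
    exact pvwin_KW H hx (by omega) hq6 ((pt_PV h1 h2).1 h)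
  · rw [ltf_iff] at h1 h2
    rw [lt_iff] at h3
    rw [r_sub, r_mul]
    refine piece' hx (fun i hi => (and48 hi).1) fun i hi => ?_
    obtain ⟨hk, hj, hj'⟩ := cell_lt (and48 hi).1
    have h4 := imB_iff.1 (allB_iff.1 (allB_iff.1 ef_tab (l - 96) (by omega)) i (and48 hi).1) hi
    by_cases h5 : l < 108
    · have e : Nat.ble (l - 96 + 1) 12 = true := by rw [Nat.ble_eq]; omega
      rw [e, cond_true] at h4
      exact (pt_E h2 h5).1 h _ hk _ hj' h4
    · have e : Nat.ble (l - 96 + 1) 12 = false := by rw [Bool.eq_false_iff, ne_eq, Nat.ble_eq]; omega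
      have e1 : l - 96 - 12 = l - 108 := by omega
      rw [e, cond_false, e1] at h4
      exact (pt_F (by omega) h3).1 h _ hk _ hj' h4
  · rw [ltf_iff] at h1 h2 h3
    rw [r_sub, r_mul]
    refine KW.shift (by omega) fun i hi => ?_
    have h4 : i < 128 := (and128 hi).1
    refine ⟨h4, ?_⟩
    rw [hq_pt hx]
    by_cases h5 : l - 120 < 8
    swap
    · exfalso
      unfold pt at h
      rw [if_neg (by omega), if_neg (by omega), if_neg (by omega), if_neg (by omega), if_neg (by omega),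
        if_neg (by omega), if_neg (by omega), if_neg (by omega), if_neg (by omega), if_neg (by omega)] at h
      exact h
    have h6 := imB_iff.1 (allB_iff.1 (allB_iff.1 rs_tab (l - 120) h5) i h4) hi
    unfold rsB at h6
    simp only [Bool.or_eq_true, Bool.and_eq_true, Nat.ble_eq, Nat.beq_eq] at h6
    rcases h6 with ((((⟨h6, h7⟩ | ⟨h6, h7⟩) | ⟨h6, h7⟩) | ⟨h6, h7⟩) | ⟨h6, h7⟩) | ⟨h6, h7⟩
    · have e : l = 120 := by omega
      rw [e, pt_120] at h
      rcases h7 with h7 | h7
      · rw [h7, pt_121]; exact not_not.2 h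
      · rw [h7, pt_123]; exact not_not.2 (M.tp hx hq6 h)
    · have e : l = 121 := by omega
      rw [e, pt_121] at h
      rcases h7 with h7 | h7
      · rw [h7, pt_120]; exact h
      · have h8 : i < 48 := by omega
        rw [pt_V h8]
        obtain ⟨hk, hj, hj'⟩ := cell_lt h8
        exact fun h9 => h (M.vt hk hx hj hq6 h9)
    · have e : l = 122 := by omega
      rw [e, pt_122] at h
      rw [h7, pt_123]; exact not_not.2 h
    · have e : l = 123 := by omega
      rw [e, pt_123] at h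
      rcases h7 with (h7 | h7) | h7
      · rw [h7, pt_120]; exact fun h9 => h (M.tp hx hq6 h9)
      · rw [h7, pt_122]; exact h
      · by_cases h8 : i < 48
        · rw [pt_V h8]
          obtain ⟨hk, hj, hj'⟩ := cell_lt h8
          exact fun h9 => h (M.tp hx hq6 (M.vt hk hx hj hq6 h9))
        · rw [pt_PV (by omega) (by omega)]
          obtain ⟨hk, hj, hj'⟩ := cell_lt (c := i - 48) (by omega)
          exact fun h9 => h (M.pvp hk hx hj hq6 h9)
    · have e : l = 124 := by omega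
      rw [e, pt_124] at h
      rw [h7, pt_125]; exact fun h9 => h9.2 h.2
    · have e : l = 125 := by omega
      rw [e, pt_125] at h
      rw [h7, pt_124]; exact fun h9 => h.2 h9.2

/-- cells of the sector of 60 degrees -/
theorem s60_of {x c m : ℕ} (hc : c < 48) (h : s60B c m = true) (hV : M.V (c / 12) x (c % 12) q) : M.S60 x m q := by
  unfold s60B at h
  by_cases h0 : c / 12 = 0
  · have e0 : Nat.beq (c / 12) 0 = true := by rw [Nat.beq_eq]; exact h0
    rw [e0, cond_true] at h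
    simp only [Bool.or_eq_true, Nat.beq_eq] at h
    rw [h0] at hV
    rcases h with h5 | h5
    · rw [h5] at hV; exact Or.inl hV
    · rw [h5] at hV; exact Or.inr (Or.inl hV)
  · have e0 : Nat.beq (c / 12) 0 = false := by rw [Bool.eq_false_iff, ne_eq, Nat.beq_eq]; exact h0
    rw [e0, cond_false, Nat.beq_eq] at h
    have hk2 : (c / 12 - 1) + 1 = c / 12 := by omega
    rw [← hk2, h] at hV
    exact Or.inr (Or.inr ⟨c / 12 - 1, by omega, hV⟩)

theorem ap_of {x c m : ℕ} (hc : c < 48) (h : apB c m = true) (hV : M.V (c / 12) x (c % 12) q) : M.Ap x m q := by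
  unfold apB at h
  by_cases h0 : c / 12 = 0
  · have e0 : Nat.beq (c / 12) 0 = true := by rw [Nat.beq_eq]; exact h0
    rw [e0, cond_true, Nat.beq_eq] at h
    rw [h0, h] at hV; exact Or.inl hV
  · have e0 : Nat.beq (c / 12) 0 = false := by rw [Bool.eq_false_iff, ne_eq, Nat.beq_eq]; exact h0
    rw [e0, cond_false, Nat.beq_eq] at h
    have hk2 : (c / 12 - 1) + 1 = c / 12 := by omega
    rw [← hk2, h] at hV
    exact Or.inr ⟨c / 12 - 1, by omega, hV⟩

theorem bm_of {x c m : ℕ} (hc : c < 48) (h : bmB c m = true) (hV : M.V (c / 12) x (c % 12) q) : M.Bm x m q := by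
  unfold bmB at h
  by_cases h0 : c / 12 = 0
  · have e0 : Nat.beq (c / 12) 0 = true := by rw [Nat.beq_eq]; exact h0
    rw [e0, cond_true, Nat.beq_eq] at h
    rw [h0, h] at hV; exact Or.inl hV
  · have e0 : Nat.beq (c / 12) 0 = false := by rw [Bool.eq_false_iff, ne_eq, Nat.beq_eq]; exact h0
    rw [e0, cond_false, Nat.beq_eq] at h
    have hk2 : (c / 12 - 1) + 1 = c / 12 := by omega
    rw [← hk2, h] at hV
    exact Or.inr ⟨c / 12 - 1, by omega, hV⟩

section
variable {x l : ℕ}
theorem bt0 (h : l < 6) : bt M q x l ↔ M.S60 x l q := by unfold bt; rw [if_pos h]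
theorem bt6 (h1 : 6 ≤ l) (h : l < 12) : bt M q x l ↔ ¬ M.S60 x (l - 6) q := by
  unfold bt; rw [if_neg (by omega), if_pos h]
theorem bt12 (h1 : 12 ≤ l) (h : l < 18) : bt M q x l ↔ M.Ap x (l - 12) q := by
  unfold bt; rw [if_neg (by omega), if_neg (by omega), if_pos h]
theorem bt18 (h1 : 18 ≤ l) (h : l < 24) : bt M q x l ↔ ¬ M.Ap x (l - 18) q := by
  unfold bt; rw [if_neg (by omega), if_neg (by omega), if_neg (by omega), if_pos h]
theorem bt24 (h1 : 24 ≤ l) (h : l < 30) : bt M q x l ↔ M.Bm x (l - 24) q := by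
  unfold bt; rw [if_neg (by omega), if_neg (by omega), if_neg (by omega), if_neg (by omega), if_pos h]
theorem bt30 (h1 : 30 ≤ l) (h : l < 36) : bt M q x l ↔ ¬ M.Bm x (l - 30) q := by
  unfold bt; rw [if_neg (by omega), if_neg (by omega), if_neg (by omega), if_neg (by omega), if_neg (by omega), if_pos h]
theorem bt36 (h1 : 36 ≤ l) (h : l < 42) : bt M q x l ↔ M.AR x (l - 36) q := by
  unfold bt; rw [if_neg (by omega), if_neg (by omega), if_neg (by omega), if_neg (by omega), if_neg (by omega),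
    if_neg (by omega), if_pos h]
theorem bt42 (h1 : 42 ≤ l) (h : l < 48) : bt M q x l ↔ ¬ M.AR x (l - 42) q := by
  unfold bt; rw [if_neg (by omega), if_neg (by omega), if_neg (by omega), if_neg (by omega), if_neg (by omega),
    if_neg (by omega), if_neg (by omega), if_pos h]
theorem bt48 (h1 : 48 ≤ l) (h : l < 54) : bt M q x l ↔ M.AL x (l - 48) q := by
  unfold bt; rw [if_neg (by omega), if_neg (by omega), if_neg (by omega), if_neg (by omega), if_neg (by omega),
    if_neg (by omega), if_neg (by omega), if_neg (by omega), if_pos h]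
theorem bt54 (h1 : 54 ≤ l) (h : l < 60) : bt M q x l ↔ ¬ M.AL x (l - 54) q := by
  unfold bt; rw [if_neg (by omega), if_neg (by omega), if_neg (by omega), if_neg (by omega), if_neg (by omega),
    if_neg (by omega), if_neg (by omega), if_neg (by omega), if_neg (by omega), if_pos h]
theorem bt60 (h1 : 60 ≤ l) (h : l < 108) : bt M q x l ↔ ¬ M.V ((l - 60) / 12) x ((l - 60) % 12) q := by
  unfold bt; rw [if_neg (by omega), if_neg (by omega), if_neg (by omega), if_neg (by omega), if_neg (by omega),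
    if_neg (by omega), if_neg (by omega), if_neg (by omega), if_neg (by omega), if_neg (by omega), if_pos h]
end

/-- the directions of `q` at the ray are directions in the sector -/
theorem ar_s60 {x m : ℕ} (hx : x < NW) (hm : m < 6) (hq6 : q < 6) (h : M.AR x m q) : M.S60 x m q := M.ars rfl hx hm hq6 h
theorem al_s60 {x m : ℕ} (hx : x < NW) (hm : m < 6) (hq6 : q < 6) (h : M.AL x m q) : M.S60 x m q := M.als rfl hx hm hq6 h

/-- **The row of a place of the bits block.** -/
theorem bwin0_KW (hq6 : q < 6) {x l : ℕ} (hx : x < NW) (hl : l < 108) (h : bt M q x l) :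
    KW M q (Nat.lor (Nat.shiftLeft (ent BT 128 M72 l) (bb NP NW x)) (Nat.shiftLeft (Nat.shiftRight (ent BT 128 M128 l) 72) (Nat.mul 128 x))) := by
  have hNP := M.hNW
  refine KW.lor ?_ ?_
  · rw [bb_eq]
    refine KW.shift (by omega) fun i hi => ?_
    have h1 : i < 72 := (and72 hi).1
    refine ⟨by omega, ?_⟩
    rw [hq_bt hx]
    have h2 := imB_iff.1 (allB_iff.1 (allB_iff.1 bt_tab l hl) i h1) hi
    unfold btB at h2
    simp only [Bool.or_eq_true, Bool.and_eq_true, Nat.ble_eq, Nat.beq_eq] at h2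
    rcases h2 with ((((((((⟨h2, h3⟩ | ⟨⟨h1, h2⟩, h3⟩) | ⟨⟨h1, h2⟩, h3⟩) | ⟨⟨h1, h2⟩, h3⟩) | ⟨⟨h1, h2⟩, h3⟩) |
      ⟨⟨h1, h2⟩, h3⟩) | ⟨⟨h1, h2⟩, h3⟩) | ⟨⟨h1, h2⟩, h3⟩) | ⟨⟨h1, h2⟩, h3⟩) | ⟨⟨h1, h2⟩, h3⟩
    · rw [bt0 (by omega)] at h
      rw [h3, bt6 (by omega) (by omega)]
      have e : l + 6 - 6 = l := by omega
      rw [e]; exact not_not.2 h
    · rw [bt6 h1 (by omega)] at h
      rcases h3 with (h3 | h3) | h3
      · rw [h3, bt0 (by omega)]; exact h
      · rw [h3, bt36 (by omega) (by omega)]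
        have e : l + 30 - 36 = l - 6 := by omega
        rw [e]; exact fun h4 => h (ar_s60 hx (by omega) hq6 h4)
      · rw [h3, bt48 (by omega) (by omega)]
        have e : l + 42 - 48 = l - 6 := by omega
        rw [e]; exact fun h4 => h (al_s60 hx (by omega) hq6 h4)
    · rw [bt12 h1 (by omega)] at h
      rw [h3, bt18 (by omega) (by omega)]
      have e : l + 6 - 18 = l - 12 := by omega
      rw [e]; exact not_not.2 h
    · rw [bt18 h1 (by omega)] at h
      rw [h3, bt12 (by omega) (by omega)]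
      have e : l - 6 - 12 = l - 18 := by omega
      rw [e]; exact h
    · rw [bt24 h1 (by omega)] at h
      rw [h3, bt30 (by omega) (by omega)]
      have e : l + 6 - 30 = l - 24 := by omega
      rw [e]; exact not_not.2 h
    · rw [bt30 h1 (by omega)] at h
      rw [h3, bt24 (by omega) (by omega)]
      have e : l - 6 - 24 = l - 30 := by omega
      rw [e]; exact h
    · rw [bt36 h1 (by omega)] at h
      rcases h3 with h3 | h3
      · rw [h3, bt42 (by omega) (by omega)]
        have e : l + 6 - 42 = l - 36 := by omega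
        rw [e]; exact not_not.2 h
      · rw [h3, bt6 (by omega) (by omega)]
        have e : l - 30 - 6 = l - 36 := by omega
        rw [e]; exact not_not.2 (ar_s60 hx (by omega) hq6 h)
    · rw [bt42 h1 (by omega)] at h
      rw [h3, bt36 (by omega) (by omega)]
      have e : l - 6 - 36 = l - 42 := by omega
      rw [e]; exact h
    · rw [bt48 h1 (by omega)] at h
      rcases h3 with h3 | h3
      · rw [h3, bt54 (by omega) (by omega)]
        have e : l + 6 - 54 = l - 48 := by omega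
        rw [e]; exact not_not.2 h
      · rw [h3, bt6 (by omega) (by omega)]
        have e : l - 42 - 6 = l - 48 := by omega
        rw [e]; exact not_not.2 (al_s60 hx (by omega) hq6 h)
    · rw [bt54 h1 (by omega)] at h
      rw [h3, bt48 (by omega) (by omega)]
      have e : l - 6 - 48 = l - 54 := by omega
      rw [e]; exact h
  · rw [r_mul, r_sr]
    have hb : ∀ i, ((ent BT 128 M128 l) >>> 72).testBit i = true → i < 48 ∧ bvB l i = true := fun i hi => by
      have h0 : i < 56 := by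
        rw [Nat.testBit_shiftRight] at hi
        have := (and128 hi).1
        omega
      have h2 := imB_iff.1 (allB_iff.1 (allB_iff.1 bv_tab l hl) i h0) hi
      simp only [Bool.and_eq_true, Nat.ble_eq] at h2
      exact ⟨by omega, h2.2⟩
    refine piece' (by omega) (fun i hi => (hb i hi).1) fun i hi => ?_
    obtain ⟨h1, h2⟩ := hb i hi
    unfold bvB at h2
    simp only [Bool.or_eq_true, Bool.and_eq_true, Nat.ble_eq, Nat.beq_eq] at h2
    intro hV
    rcases h2 with ((⟨⟨h3, h4⟩, h5⟩ | ⟨⟨h3, h4⟩, h5⟩) | ⟨⟨h3, h4⟩, h5⟩) | ⟨⟨h3, h4⟩, h5⟩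
    · rw [bt6 h3 (by omega)] at h
      exact h (s60_of h1 h5 hV)
    · rw [bt18 h3 (by omega)] at h
      exact h (ap_of h1 h5 hV)
    · rw [bt30 h3 (by omega)] at h
      exact h (bm_of h1 h5 hV)
    · rw [bt60 h3 (by omega)] at h
      rw [h5] at hV
      exact h hV

theorem bwin_KW (H : Tab NP NW nbr TB WN) (hq6 : q < 6) {x l : ℕ} (hx : x < NW) (hl : l < 108) (h : bt M q x l) :
    KW M q (bwin NP NW TB x l) := by
  have hNP := M.hNW
  unfold bwin
  refine KW.lor (bwin0_KW hq6 hx hl h) (KW.br (fun _ => KW.zero) (fun h1 => KW.br (fun h2 => ?_) (fun h2 =>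
    KW.br (fun _ => KW.zero) (fun h3 => KW.br (fun h4 => ?_) (fun _ => KW.zero)))))
  · rw [ltf_iff] at h1
    rw [lt_iff] at h2
    rw [bt36 h1 h2] at h
    have e : Nat.sub (Nat.mul 2 l) 36 = 36 + 2 * (l - 36) := by simp only [r_sub, r_mul]; omega
    have e1 : (36 + 2 * (l - 36)) / 12 = 3 := by omega
    have e2 : (36 + 2 * (l - 36)) % 12 = 2 * (l - 36) := by omega
    rw [e]
    refine vwin_KW H (by omega) (by omega) hq6 ?_
    rw [e1, e2]
    exact M.ar3 rfl hx (by omega) hq6 h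
  · rw [ltf_iff] at h3
    rw [lt_iff] at h4
    rw [bt48 h3 h4] at h
    have e : Nat.add 12 (Nat.mod (Nat.sub (Nat.mul 2 l) 94) 12) = 12 + (2 * (l - 48) + 2) % 12 := by
      have e0 : Nat.mod (Nat.sub (Nat.mul 2 l) 94) 12 = (2 * l - 94) % 12 := rfl
      rw [e0, r_add]; omega
    have e1 : (12 + (2 * (l - 48) + 2) % 12) / 12 = 1 := by omega
    have e2 : (12 + (2 * (l - 48) + 2) % 12) % 12 = (2 * (l - 48) + 2) % 12 := by omega
    rw [e]
    refine vwin_KW H (by omega) (by omega) hq6 ?_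
    rw [e1, e2]
    have := M.al1 rfl hx (by omega : l - 48 < 6) hq6 h
    rw [ad_eq2] at this
    exact this

theorem cel_bit {i : ℕ} : (cel NP NW).testBit i = true ↔ ∃ r < 6, i = r * SS NP NW := by
  unfold cel
  simp only [r_lor, r_sl, r_mul, cs_eq]
  have e0 : (1 : ℕ) = 1 <<< 0 := rfl
  simp only [Nat.testBit_or, Nat.one_shiftLeft, Nat.testBit_two_pow, Bool.or_eq_true, decide_eq_true_eq]
  have e1 : (Nat.testBit 1 i = true) ↔ i = 0 := by
    have := Nat.testBit_two_pow (n := 0) (m := i)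
    rw [pow_zero] at this
    rw [this, decide_eq_true_eq]; exact eq_comm
  rw [e1]
  constructor
  · rintro (h | h | h | h | h | h)
    · exact ⟨0, by norm_num, by omega⟩
    · exact ⟨1, by norm_num, by omega⟩
    · exact ⟨2, by norm_num, by omega⟩
    · exact ⟨3, by norm_num, by omega⟩
    · exact ⟨4, by norm_num, by omega⟩
    · exact ⟨5, by norm_num, by omega⟩
  · rintro ⟨r, hr, h⟩
    interval_cases r <;> omega

theorem celx_bit {i q : ℕ} (hq6 : q < 6) : (celx NP NW q).testBit i = true ↔ ∃ r < 6, r ≠ q ∧ i = r * SS NP NW := by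
  unfold celx
  rw [r_xor, Nat.testBit_xor, r_sl, r_mul, cs_eq, Nat.one_shiftLeft, Nat.testBit_two_pow]
  by_cases h : q * SS NP NW = i
  · have h1 : (cel NP NW).testBit i = true := cel_bit.2 ⟨q, hq6, h.symm⟩
    rw [h1]
    simp only [h, decide_true, Bool.xor_self, Bool.false_eq_true, false_iff, not_exists, not_and]
    intro r _ h2 h3
    rw [← h] at h3
    exact h2 (Nat.eq_of_mul_eq_mul_right SS_pos h3).symm
  · simp only [h, decide_false, Bool.xor_false]
    rw [cel_bit]
    constructor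
    · rintro ⟨r, hr, h1⟩
      exact ⟨r, hr, fun h2 => h (by rw [h1, h2]), h1⟩
    · rintro ⟨r, hr, -, h1⟩
      exact ⟨r, hr, h1⟩

theorem pos_eq {b l : ℕ} : pos NP NW q b l = q * SS NP NW + (128 * b + l) := by
  unfold pos; rw [cs_eq]; rfl

/-- **The row of a literal.** -/
theorem row_KD (H : Tab NP NW nbr TB WN) {b l : ℕ} (h8l : l < 128) (h : hl M (pos NP NW q b l)) :
    KD M (row NP NW TB WN q b l) := by
  have hNP := M.hNW
  unfold row
  refine KD.br (fun h1 => ?_) (fun _ => KD.zero)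
  rw [Nat.ble_eq] at h1
  have hq6 : q < 6 := by omega
  refine KD.br (fun h2 => ?_) (fun h2 => KD.br (fun h3 => KD.br (fun h7 => KD.br (fun _ => KD.zero) (fun h9 => ?_))
    (fun _ => KD.zero)) (fun h3 => KD.br (fun h4 => ?_) (fun h4 =>
    KD.br (fun h5 => KD.br (fun h6 => ?_) (fun _ => KD.zero)) (fun _ => KD.zero))))
  · rw [lt_iff] at h2
    rw [hl_pos hq6 (by omega) h8l, hq_pt h2] at h
    exact KD.shift hq6 (prow_KW H hq6 h2 h)
  · rw [Nat.beq_eq] at h3 h7
    rw [ltf_iff] at h9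
    subst h7
    rw [h3] at h ⊢
    rw [hl_pos hq6 (by omega) h8l, hq_fa (by omega)] at h
    intro n hn
    have e7 : n = pos NP NW 0 NP (Nat.xor l 1) := pow_bit (by simpa only [r_sl] using hn)
    have e8 : Nat.xor l 1 = if l % 2 = 0 then l + 1 else l - 1 := by
      rcases Nat.mod_two_eq_zero_or_one l with h | h
      · rw [if_pos h]
        show l ^^^ 1 = _
        rw [Nat.xor_one_of_even (Nat.even_iff.2 h)]
      · rw [if_neg (by omega)]
        show l ^^^ 1 = _
        rw [Nat.xor_one_of_odd (Nat.odd_iff.2 h)]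
    rw [e7, e8]
    rcases Nat.mod_two_eq_zero_or_one l with h1 | h1
    · rw [if_pos h1] at h ⊢
      rw [hl_pos hq6 (by omega) (by omega), hq_fa (by omega), if_neg (by omega)]
      have g1 : (l + 1 - 96) / 16 = (l - 96) / 16 := by omega
      have g2 : (l + 1 - 96) / 2 % 8 = (l - 96) / 2 % 8 := by omega
      rw [g1, g2]
      exact not_not.2 h
    · rw [if_neg (by omega)] at h ⊢
      rw [hl_pos hq6 (by omega) (by omega), hq_fa (by omega), if_pos (by omega)]
      have g1 : (l - 1 - 96) / 16 = (l - 96) / 16 := by omega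
      have g2 : (l - 1 - 96) / 2 % 8 = (l - 96) / 2 % 8 := by omega
      rw [g1, g2]
      exact h
  · rw [ltf_iff] at h2
    rw [lt_iff] at h4
    simp only [r_succ, r_add] at h4
    have h3' : b ≠ NP := fun h => by rw [h] at h3; simp at h3
    obtain ⟨x, rfl⟩ : ∃ x, b = NP + 1 + x := ⟨b - (NP + 1), by omega⟩
    have hx : x < NW := by omega
    rw [hl_pos hq6 (by omega) h8l, hq_wd hx] at h
    have e : Nat.sub (NP + 1 + x) (Nat.succ NP) = x := by simp only [r_sub, r_succ]; omega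
    rw [e]
    refine KD.br (fun h5 => ?_) (fun h5 => KD.br (fun h6 => ?_) (fun _ => KD.zero))
    · rw [lt_iff] at h5
      rw [wd_W h5] at h
      refine KD.lor ?_ (KD.shift hq6 (wwin_KW H hq6 hx h5 h))
      intro n hn
      simp only [r_sl, r_add, r_mul] at hn
      rw [Nat.testBit_shiftLeft, Bool.and_eq_true, decide_eq_true_eq, celx_bit hq6] at hn
      obtain ⟨h7, r, hr, hrq, h8⟩ := hn
      have e1 : n = pos NP NW r (NP + 1 + x) l := by rw [pos_eq]; omega
      rw [e1, hl_pos hr (by omega) h8l, hq_wd hx, wd_W h5, h]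
      exact fun h9 => hrq h9.symm
    · rw [ltf_iff] at h5
      rw [lt_iff] at h6
      have e1 : l = 48 + (l - 48) := by omega
      rw [e1, wd_nW (by omega)] at h
      intro n hn
      have h7 : n = pos NP NW q (NP + 1 + x) (Nat.sub l 48) := pow_bit (by simpa only [r_sl] using hn)
      rw [h7, r_sub, hl_pos hq6 (by omega) (by omega), hq_wd hx, wd_W (by omega)]
      exact h
  · rw [ltf_iff] at h2 h4
    rw [lt_iff] at h5 h6
    simp only [r_succ, r_add, r_mul] at h4 h5
    obtain ⟨x, rfl⟩ : ∃ x, b = NP + 1 + NW + x := ⟨b - (NP + 1 + NW), by omega⟩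
    have hx : x < NW := by omega
    rw [hl_pos hq6 (by omega) h8l, hq_bt hx] at h
    have e : Nat.sub (NP + 1 + NW + x) (Nat.succ (Nat.add NP NW)) = x := by simp only [r_sub, r_succ, r_add]; omega
    rw [e]
    exact KD.shift hq6 (bwin_KW H hq6 hx h6 h)

end Vale.Agent.P032.H286.E
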