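import Vale.Agent.P032X.H286.Eng
import Vale.Agent.P032X.H820.K.Gen

/-!
# P032: the engine with one mask of dead literals (meaning)

The meaning of the positions in a model `M : Md 2 NP NW nb`, and the calculus of masks.
-/

namespace Vale.Agent.P032.H286.E

open Vale.Agent.P032.H820.K

theorem r_land (a b : ℕ) : Nat.land a b = a &&& b := rfl
theorem r_lor (a b : ℕ) : Nat.lor a b = a ||| b := rfl
theorem r_xor (a b : ℕ) : Nat.xor a b = a ^^^ b := rfl
theorem r_sl (a b : ℕ) : Nat.shiftLeft a b = a <<< b := rfl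
theorem r_sr (a b : ℕ) : Nat.shiftRight a b = a >>> b := rfl
theorem r_mul (a b : ℕ) : Nat.mul a b = a * b := rfl
theorem r_add (a b : ℕ) : Nat.add a b = a + b := rfl
theorem r_sub (a b : ℕ) : Nat.sub a b = a - b := rfl
theorem r_succ (a : ℕ) : Nat.succ a = a + 1 := rfl

theorem br_t {α : Type} (x y : α) : br true x y = x := rfl
theorem br_f {α : Type} (x y : α) : br false x y = y := rfl

theorem lt_iff {a b : ℕ} : lt a b = true ↔ a < b := by
  unfold lt; rw [Nat.ble_eq]; exact Iff.rfl

theorem ltf_iff {a b : ℕ} : lt a b = false ↔ b ≤ a := by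
  rw [← Bool.not_eq_true, lt_iff]; exact Nat.not_lt

/-- case distinction for `br` -/
theorem br_ind {α : Type} {P : α → Prop} {b : Bool} {x y : α} (h1 : b = true → P x) (h2 : b = false → P y) :
    P (br b x y) := by
  cases b
  · exact h2 rfl
  · exact h1 rfl

section
variable {NP NW : ℕ} {nb : ℕ → ℕ → ℕ} (M : Md 2 NP NW nb)

/-- meaning of the places of the block of a point -/
def pt (q x l : ℕ) : Prop :=
  if l < 48 then M.V (l / 12) x (l % 12) q else
  if l < 96 then M.PV ((l - 48) / 12) x ((l - 48) % 12) q else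
  if l < 108 then (∀ k < 4, ∀ j < 12, ecell 2 k j (l - 96) = true → ¬ M.V k x j q) else
  if l < 120 then (∀ k < 4, ∀ j < 12, fcell 2 k j (l - 108) = true → ¬ M.V k x j q) else
  if l = 120 then M.T x q else if l = 121 then ¬ M.T x q else if l = 122 then M.P x q else
  if l = 123 then ¬ M.P x q else if l = 124 then (q = 0 ∧ M.X x) else if l = 125 then (q = 0 ∧ ¬ M.X x) else False

/-- meaning of the places of the block of the letters of a word point -/
def wd (q x l : ℕ) : Prop :=
  if l < 48 then M.W x (l / 4) (l / 2 % 2) (l % 2) = q else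
  if l < 96 then M.W x ((l - 48) / 4) ((l - 48) / 2 % 2) ((l - 48) % 2) ≠ q else False

/-- meaning of the places of the block of the bits of a word point -/
def bt (q x l : ℕ) : Prop :=
  if l < 6 then M.S60 x l q else if l < 12 then ¬ M.S60 x (l - 6) q else
  if l < 18 then M.Ap x (l - 12) q else if l < 24 then ¬ M.Ap x (l - 18) q else
  if l < 30 then M.Bm x (l - 24) q else if l < 36 then ¬ M.Bm x (l - 30) q else
  if l < 42 then M.AR x (l - 36) q else if l < 48 then ¬ M.AR x (l - 42) q else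
  if l < 54 then M.AL x (l - 48) q else if l < 60 then ¬ M.AL x (l - 54) q else
  if l < 108 then ¬ M.V ((l - 60) / 12) x ((l - 60) % 12) q else False

/-- meaning of the places of the free atoms -/
def fa (q l : ℕ) : Prop :=
  96 ≤ l ∧ q = 0 ∧ (if l % 2 = 0 then M.T (4095 - (l - 96) / 16) ((l - 96) / 2 % 8) else
    ¬ M.T (4095 - (l - 96) / 16) ((l - 96) / 2 % 8))

/-- meaning of the place `l` of the block `b` for the colour `q` -/
def hq (q b l : ℕ) : Prop :=
  if b < NP then pt M q b l else if b = NP then fa M q l else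
  if b < NP + 1 + NW then wd M q (b - (NP + 1)) l else
  if b < NP + 1 + 2 * NW then bt M q (b - (NP + 1 + NW)) l else False

/-- number of places of a colour -/
def SS (NP NW : ℕ) : ℕ := 128 * (NP + 1 + 2 * NW)

theorem cs_eq : cs NP NW = SS NP NW := by
  unfold cs SS
  simp only [r_mul, r_add, r_succ]
  ring

/-- meaning of a position -/
def hl (n : ℕ) : Prop :=
  if n < 6 * SS NP NW then hq M (n / SS NP NW) (n % SS NP NW / 128) (n % 128) else True

/-- no literal of the mask holds (colour `q`) -/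
def KW (q w : ℕ) : Prop := ∀ n, w.testBit n = true → n < SS NP NW ∧ ¬ hq M q (n / 128) (n % 128)

/-- no literal of the mask holds -/
def KD (m : ℕ) : Prop := ∀ n, m.testBit n = true → ¬ hl M n

/-- some literal of the mask holds -/
def CV (m : ℕ) : Prop := ∃ n, m.testBit n = true ∧ hl M n

variable {M} {q : ℕ}

theorem KW.zero : KW M q 0 := fun n h => by simp at h

theorem KW.lor {a b : ℕ} (h1 : KW M q a) (h2 : KW M q b) : KW M q (Nat.lor a b) := fun n h => by
  rw [r_lor, Nat.testBit_or, Bool.or_eq_true] at h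
  exact h.elim (h1 n) (h2 n)

theorem KW.br {b : Bool} {x y : ℕ} (h1 : b = true → KW M q x) (h2 : b = false → KW M q y) : KW M q (E.br b x y) :=
  br_ind h1 h2

theorem KD.zero : KD M 0 := fun n h => by simp at h

theorem KD.lor {a b : ℕ} (h1 : KD M a) (h2 : KD M b) : KD M (Nat.lor a b) := fun n h => by
  rw [r_lor, Nat.testBit_or, Bool.or_eq_true] at h
  exact h.elim (h1 n) (h2 n)

theorem KD.br {b : Bool} {x y : ℕ} (h1 : b = true → KD M x) (h2 : b = false → KD M y) : KD M (E.br b x y) :=
  br_ind h1 h2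

/-- a mask of places moved to its block -/
theorem KW.shift {m b : ℕ} (hb : b < NP + 1 + 2 * NW) (h : ∀ l, m.testBit l = true → l < 128 ∧ ¬ hq M q b l) :
    KW M q (Nat.shiftLeft m (128 * b)) := fun n hn => by
  rw [r_sl, Nat.testBit_shiftLeft, Bool.and_eq_true, decide_eq_true_eq] at hn
  obtain ⟨h1, h2⟩ := hn
  obtain ⟨h3, h4⟩ := h _ h2
  have e1 : n / 128 = b := by omega
  have e2 : n % 128 = n - 128 * b := by omega
  refine ⟨?_, ?_⟩
  · unfold SS; omega
  · rw [e1, e2]; exact h4

theorem SS_pos : 0 < SS NP NW := by unfold SS; omega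

/-- a mask of a colour moved to its place -/
theorem KD.shift {w : ℕ} (hq6 : q < 6) (h : KW M q w) : KD M (Nat.shiftLeft w (Nat.mul q (cs NP NW))) := fun n hn => by
  rw [r_sl, r_mul, cs_eq, Nat.testBit_shiftLeft, Bool.and_eq_true, decide_eq_true_eq] at hn
  obtain ⟨h1, h2⟩ := hn
  obtain ⟨h3, h4⟩ := h _ h2
  have h5 : n < 6 * SS NP NW := by
    have : q * SS NP NW + SS NP NW ≤ 6 * SS NP NW := by
      have : (q + 1) * SS NP NW ≤ 6 * SS NP NW := Nat.mul_le_mul_right _ hq6
      rwa [Nat.add_mul, one_mul] at this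
    omega
  obtain ⟨i, rfl⟩ : ∃ i, n = q * SS NP NW + i := ⟨n - q * SS NP NW, by omega⟩
  have e0 : q * SS NP NW + i - q * SS NP NW = i := by omega
  rw [e0] at h3 h4
  have e1 : (q * SS NP NW + i) / SS NP NW = q := by
    rw [Nat.mul_comm, Nat.mul_add_div SS_pos, Nat.div_eq_of_lt h3, add_zero]
  have e2 : (q * SS NP NW + i) % SS NP NW = i := by
    rw [Nat.mul_comm, Nat.mul_add_mod, Nat.mod_eq_of_lt h3]
  have e3 : (q * SS NP NW + i) % 128 = i % 128 := by
    have : q * SS NP NW = 128 * (q * (NP + 1 + 2 * NW)) := by unfold SS; ring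
    rw [this]; omega
  unfold hl
  rw [if_pos h5, e1, e2, e3]
  exact h4

/-- the meaning of a position -/
theorem hl_pos {b l : ℕ} (hq6 : q < 6) (hb : b < NP + 1 + 2 * NW) (hl8 : l < 128) :
    hl M (pos NP NW q b l) ↔ hq M q b l := by
  have e0 : pos NP NW q b l = q * SS NP NW + (128 * b + l) := by
    unfold pos; rw [cs_eq]; rfl
  have h3 : 128 * b + l < SS NP NW := by unfold SS; omega
  have h5 : q * SS NP NW + (128 * b + l) < 6 * SS NP NW := by
    have : (q + 1) * SS NP NW ≤ 6 * SS NP NW := Nat.mul_le_mul_right _ hq6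
    rw [Nat.add_mul, one_mul] at this
    omega
  have e1 : (q * SS NP NW + (128 * b + l)) / SS NP NW = q := by
    rw [Nat.mul_comm, Nat.mul_add_div SS_pos, Nat.div_eq_of_lt h3, add_zero]
  have e2 : (q * SS NP NW + (128 * b + l)) % SS NP NW = 128 * b + l := by
    rw [Nat.mul_comm, Nat.mul_add_mod, Nat.mod_eq_of_lt h3]
  have e3 : (q * SS NP NW + (128 * b + l)) % 128 = l := by
    have : q * SS NP NW = 128 * (q * (NP + 1 + 2 * NW)) := by unfold SS; ring
    rw [this]; omega
  have e4 : (128 * b + l) / 128 = b := by omega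
  rw [e0]
  unfold hl
  rw [if_pos h5, e1, e2, e3, e4]

theorem hq_pt {x l : ℕ} (hx : x < NP) : hq M q x l = pt M q x l := by unfold hq; rw [if_pos hx]

theorem hq_np {l : ℕ} : hq M q NP l = fa M q l := by
  unfold hq; rw [if_neg (lt_irrefl _), if_pos rfl]

theorem hq_dummy {l : ℕ} (h : l < 96) : ¬ hq M q NP l := by
  rw [hq_np]; exact fun h1 => absurd h1.1 (by omega)

theorem hq_fa {l : ℕ} (h : 96 ≤ l) : hq M 0 NP l ↔ (if l % 2 = 0 then M.T (4095 - (l - 96) / 16) ((l - 96) / 2 % 8) else
    ¬ M.T (4095 - (l - 96) / 16) ((l - 96) / 2 % 8)) := by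
  rw [hq_np]; exact ⟨fun h1 => h1.2.2, fun h1 => ⟨h, rfl, h1⟩⟩

theorem hq_wd {x l : ℕ} (hx : x < NW) : hq M q (NP + 1 + x) l = wd M q x l := by
  unfold hq
  rw [if_neg (by omega), if_neg (by omega), if_pos (by omega)]
  congr 1; omega

theorem hq_bt {x l : ℕ} (hx : x < NW) : hq M q (NP + 1 + NW + x) l = bt M q x l := by
  unfold hq
  rw [if_neg (by omega), if_neg (by omega), if_neg (by omega), if_pos (by omega)]
  congr 1; omega

end

/-! ### entries of tables -/

theorem ent_eq (T w m i : ℕ) : ent T w m i = (T >>> (w * i)) &&& m := rfl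

theorem and_lt {a k l : ℕ} (h : (a &&& (2 ^ k - 1)).testBit l = true) : l < k := by
  rw [Nat.testBit_and, Bool.and_eq_true, Nat.testBit_two_pow_sub_one, decide_eq_true_eq] at h
  exact h.2

theorem M48_eq : M48 = 2 ^ 48 - 1 := by unfold M48; norm_num
theorem M72_eq : M72 = 2 ^ 72 - 1 := by unfold M72; norm_num
theorem M96_eq : M96 = 2 ^ 96 - 1 := by unfold M96; norm_num
theorem M128_eq : M128 = 2 ^ 128 - 1 := by unfold M128; norm_num

end Vale.Agent.P032.H286.E
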