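import Vale.Agent.P032X.H286.Sem

/-!
# P032: the engine with one mask of dead literals (the constant tables)
-/

namespace Vale.Agent.P032.H286.E

open Vale.Agent.P032.H820.K

/-- `f` holds for all numbers less than `n` -/
def allB (n : ℕ) (f : ℕ → Bool) : Bool := (List.range n).all f

theorem allB_iff {n : ℕ} {f : ℕ → Bool} : allB n f = true ↔ ∀ i < n, f i = true := by
  unfold allB; rw [List.all_eq_true]; simp

/-- implication -/
def imB (a b : Bool) : Bool := !a || b

theorem imB_iff {a b : Bool} : imB a b = true ↔ (a = true → b = true) := by cases a <;> cases b <;> decide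

/-- places excluded in the own block -/
def ovB (c l : ℕ) : Bool :=
  Nat.beq l 121 || Nat.beq l 123 || (Nat.ble 96 l && Nat.ble (l + 1) 108 && ecell 2 (c / 12) (c % 12) (l - 96)) ||
    (Nat.ble 108 l && Nat.ble (l + 1) 120 && fcell 2 (c / 12) (c % 12) (l - 108))

theorem ov_tab : allB 48 (fun c => allB 128 fun l => imB ((ent OV 128 M128 c).testBit l) (ovB c l)) = true := by
  decide +kernel

/-- letters excluded by a germ -/
theorem lw_tab : allB 48 (fun c => allB 48 fun l =>
    imB ((ent LW 48 M48 c).testBit l) (wcell 2 (l / 2 % 2) (l % 2) (c / 12) (c % 12) (l / 4))) = true := by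
  decide +kernel

/-- the cell `c` is in the sector of 60 degrees `m` -/
def s60B (c m : ℕ) : Bool :=
  bif Nat.beq (c / 12) 0 then Nat.beq (c % 12) (2 * m) || Nat.beq (c % 12) (2 * m + 1) else Nat.beq (c % 12) (2 * m + 1)
/-- after the event -/
def apB (c m : ℕ) : Bool :=
  bif Nat.beq (c / 12) 0 then Nat.beq (c % 12) (2 * m) else Nat.beq (c % 12) (2 * m + 1)
/-- before the event -/
def bmB (c m : ℕ) : Bool :=
  bif Nat.beq (c / 12) 0 then Nat.beq (c % 12) (2 * m + 1) else Nat.beq (c % 12) (2 * m + 1)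

/-- bits excluded by a germ -/
def obB (c l : ℕ) : Bool :=
  (Nat.ble 6 l && Nat.ble (l + 1) 12 && s60B c (l - 6)) || (Nat.ble 18 l && Nat.ble (l + 1) 24 && apB c (l - 18)) ||
    (Nat.ble 30 l && Nat.ble (l + 1) 36 && bmB c (l - 30)) || (Nat.ble 60 l && Nat.ble (l + 1) 108 && Nat.beq c (l - 60))

theorem ob_tab : allB 48 (fun c => allB 128 fun l => imB ((ent OB 128 M128 c).testBit l) (obB c l)) = true := by
  decide +kernel

/-- the cell `l` is excluded at the neighbour `s` by a germ in the cell `c` -/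
def t12B (c s l : ℕ) : Bool :=
  bif hcell 2 (c / 12) (c % 12) s then
    hcell 2 (l / 12) (l % 12) s || (Nat.beq (l / 12) 2 && (Nat.beq (l % 12) s || Nat.beq (l % 12) ((s + 6) % 12)))
  else (hcell 2 (c / 12) (c % 12) ((s + 6) % 12) ||
      (Nat.beq (c / 12) 2 && (Nat.beq (c % 12) s || Nat.beq (c % 12) ((s + 6) % 12)))) &&
    hcell 2 (l / 12) (l % 12) ((s + 6) % 12)

theorem t12_tab : allB 48 (fun c => allB 12 fun s => allB 48 fun l =>
    imB ((T12 >>> (576 * c + 48 * s)).testBit l) (t12B c s l)) = true := by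
  decide +kernel

/-- letters 60 degrees away -/
theorem w6_tab : allB 24 (fun t => allB 48 fun l => imB ((ent W6 48 M48 t).testBit l)
    (Nat.beq (l / 2 % 2) (t % 2) && (Nat.beq (l / 4) ((t / 2 + 2) % 12) || Nat.beq (l / 4) ((t / 2 + 10) % 12)))) = true := by
  decide +kernel

/-- cells excluded by a letter -/
theorem wc_tab : allB 48 (fun l => allB 96 fun c => imB ((ent WC 96 M96 l).testBit c)
    (wcell 2 (l / 2 % 2) (l % 2) (c % 48 / 12) (c % 48 % 12) (l / 4))) = true := by
  decide +kernel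

/-- the glued cell -/
theorem gc_tab : allB 48 (fun l => Nat.beq (ent GC 6 63 l) (12 * gk (l / 2 % 2) (l % 2) + gt 2 (l / 2 % 2) (l / 4))) = true := by
  decide +kernel

/-- the half planes -/
theorem ef_tab : allB 24 (fun s => allB 48 fun c => imB ((ent EF 48 M48 s).testBit c)
    (bif Nat.ble (s + 1) 12 then ecell 2 (c / 12) (c % 12) s else fcell 2 (c / 12) (c % 12) (s - 12))) = true := by
  decide +kernel

/-- the rows of the palette places -/
def rsB (i l : ℕ) : Bool :=
  (Nat.beq i 0 && (Nat.beq l 121 || Nat.beq l 123)) || (Nat.beq i 1 && (Nat.beq l 120 || Nat.ble (l + 1) 48)) ||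
  (Nat.beq i 2 && Nat.beq l 123) || (Nat.beq i 3 && (Nat.beq l 120 || Nat.beq l 122 || Nat.ble (l + 1) 96)) ||
  (Nat.beq i 4 && Nat.beq l 125) || (Nat.beq i 5 && Nat.beq l 124)

theorem rs_tab : allB 8 (fun i => allB 128 fun l => imB ((ent RS 128 M128 i).testBit l) (rsB i l)) = true := by
  decide +kernel

/-- the rows of the bits block: places of the bits block -/
def btB (l i : ℕ) : Bool :=
  (Nat.ble (l + 1) 6 && Nat.beq i (l + 6)) || (Nat.ble 6 l && Nat.ble (l + 1) 12 && (Nat.beq i (l - 6) || Nat.beq i (l + 30) || Nat.beq i (l + 42))) ||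
  (Nat.ble 12 l && Nat.ble (l + 1) 18 && Nat.beq i (l + 6)) || (Nat.ble 18 l && Nat.ble (l + 1) 24 && Nat.beq i (l - 6)) ||
  (Nat.ble 24 l && Nat.ble (l + 1) 30 && Nat.beq i (l + 6)) || (Nat.ble 30 l && Nat.ble (l + 1) 36 && Nat.beq i (l - 6)) ||
  (Nat.ble 36 l && Nat.ble (l + 1) 42 && (Nat.beq i (l + 6) || Nat.beq i (l - 30))) ||
  (Nat.ble 42 l && Nat.ble (l + 1) 48 && Nat.beq i (l - 6)) ||
  (Nat.ble 48 l && Nat.ble (l + 1) 54 && (Nat.beq i (l + 6) || Nat.beq i (l - 42))) ||
  (Nat.ble 54 l && Nat.ble (l + 1) 60 && Nat.beq i (l - 6))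

/-- the rows of the bits block: cells -/
def bvB (l c : ℕ) : Bool :=
  (Nat.ble 6 l && Nat.ble (l + 1) 12 && s60B c (l - 6)) || (Nat.ble 18 l && Nat.ble (l + 1) 24 && apB c (l - 18)) ||
  (Nat.ble 30 l && Nat.ble (l + 1) 36 && bmB c (l - 30)) || (Nat.ble 60 l && Nat.ble (l + 1) 108 && Nat.beq c (l - 60))

theorem bt_tab : allB 108 (fun l => allB 72 fun i => imB ((ent BT 128 M72 l).testBit i) (btB l i)) = true := by
  decide +kernel

theorem bv_tab : allB 108 (fun l => allB 56 fun c => imB (((ent BT 128 M128 l) >>> 72).testBit c)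
    (Nat.ble (c + 1) 48 && bvB l c)) = true := by
  decide +kernel

/-- the cells of the definitions of the bits -/
theorem bw_tab : allB 108 (fun l => allB 48 fun c => imB (bvB l c) (((ent BT 128 M128 l) >>> 72).testBit c)) = true := by
  decide +kernel

end Vale.Agent.P032.H286.E
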