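import Vale.Agent.P032X.H286.Snd
import Vale.Agent.P032X.H820.K.Chk

/-!
# P032: the engine with one mask of dead literals (tables of neighbours, final form)

* `tabc`, `tab_of` : the tables of the engine agree with the table of the model,
* `echk_qy` : a certificate refutes all models in which the external clauses hold (without `four colours`),
* `echk_qy4` : the same with the clauses `four colours are enough at every point` as a hypothesis,
* `echk_qyg` : the same with further clauses of the model, given by their codes in `H820.K.Chk`.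
-/

namespace Vale.Agent.P032.H286.E

open Vale.Agent.P032.H820.K

/-- the word neighbours of `x` from the table of the model -/
def wnx (NW TBm x : ℕ) (l : List ℕ) : ℕ :=
  l.foldr (fun s a => Nat.lor (bif Nat.ble (nbf 2 TBm x s + 1) NW then Nat.shiftLeft 3 (128 * nbf 2 TBm x s) else 0) a) 0

theorem wnx_spec {NW TBm x : ℕ} {l : List ℕ} (hl : ∀ s ∈ l, s < 12) {n : ℕ} (h : (wnx NW TBm x l).testBit n = true) :
    ∃ y, y < NW ∧ (n = 128 * y ∨ n = 128 * y + 1) ∧ ∃ s < 12, nbf 2 TBm x s = y := by
  induction l with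
  | nil => simp [wnx] at h
  | cons s l ih =>
    have e : wnx NW TBm x (s :: l) = Nat.lor (bif Nat.ble (nbf 2 TBm x s + 1) NW then
      Nat.shiftLeft 3 (128 * nbf 2 TBm x s) else 0) (wnx NW TBm x l) := rfl
    rw [e, r_lor, Nat.testBit_or, Bool.or_eq_true] at h
    rcases h with h | h
    · cases h1 : Nat.ble (nbf 2 TBm x s + 1) NW
      · rw [h1, cond_false] at h; simp at h
      · rw [h1, cond_true, r_sl, Nat.testBit_shiftLeft, Bool.and_eq_true, decide_eq_true_eq] at h
        rw [Nat.ble_eq] at h1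
        obtain ⟨h2, h3⟩ := h
        have h4 : n - 128 * nbf 2 TBm x s < 2 := by
          have e3 : (3 : ℕ) = 2 ^ 2 - 1 := by norm_num
          rw [e3, Nat.testBit_two_pow_sub_one, decide_eq_true_eq] at h3
          exact h3
        exact ⟨_, h1, by omega, s, hl s List.mem_cons_self, rfl⟩
    · exact ih (fun s hs => hl s (List.mem_cons_of_mem _ hs)) h

/-- the check of the tables -/
def tabc (NP NW TBm TB WN : ℕ) : Bool :=
  (allB NP fun x => allB 12 fun s =>
    Nat.beq ((TB >>> (14 * (12 * x + s))) &&& 16383) (128 * (((TB >>> (14 * (12 * x + s))) &&& 16383) / 128)) &&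
    (Nat.beq (((TB >>> (14 * (12 * x + s))) &&& 16383) / 128) NP ||
      (Nat.ble ((((TB >>> (14 * (12 * x + s))) &&& 16383) / 128) + 1) NP &&
        Nat.beq (nbf 2 TBm x s) (((TB >>> (14 * (12 * x + s))) &&& 16383) / 128) &&
        Nat.beq (nbf 2 TBm (((TB >>> (14 * (12 * x + s))) &&& 16383) / 128) ((s + 6) % 12)) x))) &&
  (allB NW fun x => Nat.beq (ent WN (128 * NW) (2 ^ (128 * NW) - 1) x) (wnx NW TBm x [0, 1, 2, 3, 4, 5, 6, 7, 8, 9, 10, 11]))

theorem tab_of {NP NW TBm TB WN : ℕ} (h : tabc NP NW TBm TB WN = true) : Tab NP NW (nbf 2 TBm) TB WN := by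
  unfold tabc at h
  rw [Bool.and_eq_true, allB_iff, allB_iff] at h
  obtain ⟨h1, h2⟩ := h
  refine ⟨fun x hx s hs => ?_, fun x hx n hn => ?_⟩
  · have h3 := allB_iff.1 (h1 x hx) s hs
    rw [Bool.and_eq_true, Bool.or_eq_true, Bool.and_eq_true, Bool.and_eq_true, Nat.beq_eq, Nat.beq_eq, Nat.ble_eq, Nat.beq_eq,
      Nat.beq_eq] at h3
    obtain ⟨h3, h4⟩ := h3
    exact ⟨_, h3, h4.imp id fun h5 => ⟨h5.1.1, h5.1.2, h5.2⟩⟩
  · have h3 := h2 x hx
    rw [Nat.beq_eq] at h3
    rw [h3] at hn
    exact wnx_spec (by decide) hn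

/-- **A certificate of the engine refutes all models in which the external clauses hold.** -/
theorem echk_qy {NP NW TBm TB WN fuel : ℕ} {e : List (List ℕ)} {cc : List ℕ} (ht : tabc NP NW TBm TB WN = true)
    (h : echk NP NW TB WN false e fuel cc = true) : ∀ M : Md 2 NP NW (nbf 2 TBm), (∀ c ∈ e, Ho M c) → False :=
  fun _ he => echk_sound (tab_of ht) (fun h4 => absurd h4 Bool.false_ne_true) h he

/-- the same with four colours at every point -/
theorem echk_qy4 {NP NW TBm TB WN fuel : ℕ} {f4 : Bool} {e : List (List ℕ)} {cc : List ℕ} (ht : tabc NP NW TBm TB WN = true)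
    (h : echk NP NW TB WN f4 e fuel cc = true) : ∀ M : Md 2 NP NW (nbf 2 TBm),
      (∀ x < NP, ∀ a < 6, ∃ r < 6, r ≠ a ∧ ¬ M.T x r) → (∀ c ∈ e, Ho M c) → False :=
  fun _ h4 he => echk_sound (tab_of ht) (fun _ => h4) h he

/-- **A certificate with further clauses of the model** (list `gs` of codes of `gen`), behind the external clauses. -/
theorem echk_qyg {NP NW TBm TB WN fuel : ℕ} {e : List (List ℕ)} {cc : List ℕ} (gs : List ℕ)
    (ht : tabc NP NW TBm TB WN = true)
    (h : echk NP NW TB WN false (e ++ gs.map (gen 2 NP NW TBm [])) fuel cc = true) :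
    ∀ M : Md 2 NP NW (nbf 2 TBm), (∀ c ∈ e, Ho M c) → False := fun M he =>
  echk_qy ht h M fun c hc => (List.mem_append.1 hc).elim (he c) fun h1 => by
    obtain ⟨n, -, rfl⟩ := List.mem_map.1 h1
    exact gen_ho M (fun c hc => absurd hc List.not_mem_nil) n

end Vale.Agent.P032.H286.E
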