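import Vale.Agent.P032X.H286.Y73
import Vale.Agent.P032X.H61.BlkS
import Vale.Agent.P032X.H892.BlkS

/-!
# P032: certificates of the blocks X1 and X3, 73 points

* `Wx E t f P` : a query with base clauses `E`, the units of `P`, images of the patterns of the tree `t` under the whole
  group and clauses of the function `f` refutes `P`; `dead_wx`, `tr_wx`,
* `fam3` : the clauses of block X3 at level 1 (base, `n55C`, `harmC`), `fam3_ho`, `crtF_nil`, `crtF_cons`.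
-/

namespace Vale.Agent.P032.H286.E

open Vale.Agent.P032.H820.K Vale.Agent.P032.H357.MK Vale.Agent.P032.H61 Vale.Agent.P032.H357 Vale.Agent.P032.H892
open Vale.Agent.P032.H61.TF Vale.Agent.P032.BlkE Vale.Agent.P032.BlkV

/-- the pattern `P` is refuted by a query with images of the patterns of `t` and clauses of `f` -/
def Wx (E : List (List ℕ)) (t : PTr) (f : ℕ → List ℕ) (P : List ℕ) : Prop :=
  ∃ cs : List ℕ, Qy 73 73 TBm (cs.map (mX2 E P t PX 120 TG f))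

theorem wx_nil {E : List (List ℕ)} {t : PTr} {f : ℕ → List ℕ} : ∀ P ∈ ([] : List (List ℕ)), Wx E t f P :=
  fun _ h => absurd h List.not_mem_nil

theorem wx_cons {E : List (List ℕ)} {t : PTr} {f : ℕ → List ℕ} {P : List ℕ} {L : List (List ℕ)} (h : Wx E t f P)
    (hL : ∀ P ∈ L, Wx E t f P) : ∀ P' ∈ P :: L, Wx E t f P' := by
  intro P' h'
  rcases List.mem_cons.1 h' with rfl | h'
  · exact h
  · exact hL _ h'

/-- **such a pattern is dead** -/
theorem dead_wx {C C' : Fr → Prop} (hOk : ∀ F, C' F → FOk (kap TF.TC) (cxv 73 TF.TC) F) (hCC : ∀ F, C' F → C F)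
    (hCr : ∀ F, C F → C (F.rot (ptb TG 1))) (hCm : ∀ F, C F → C (F.mir (ptb TG 6))) (hPT : OkPT C PX 120) {tr : PTr}
    (ht : tr.All fun p => Dead (kap TF.TC) C (pk p) ∧ Vl (Gp 73 TF.TC) (Ce 73 TF.TC) (pk p))
    {e : List (List ℕ)} (he : ∀ F M, C' F → Mdl (tb (le_refl 73)) F M → ∀ c ∈ e, Ho M c) {f : ℕ → List ℕ}
    (hf : ∀ F M, C' F → Mdl (tb (le_refl 73)) F M → ∀ c, Ho M (f c)) {P : List ℕ}
    (hv : Vl (Gp 73 TF.TC) (Ce 73 TF.TC) P) (hq : Wx e tr f P) : Dead (kap TF.TC) C' P := by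
  obtain ⟨cs, hq⟩ := hq
  rw [tbm_eq] at hq
  exact dead_X2 (tb (le_refl 73)) g73 hOk hCC hCr hCm hPT ht he hf hv hq

/-- **the tree of a list of such patterns** -/
theorem tr_wx {C C' : Fr → Prop} (hOk : ∀ F, C' F → FOk (kap TF.TC) (cxv 73 TF.TC) F) (hCC : ∀ F, C' F → C F)
    (hCr : ∀ F, C F → C (F.rot (ptb TG 1))) (hCm : ∀ F, C F → C (F.mir (ptb TG 6))) (hPT : OkPT C PX 120) {tr : PTr}
    (ht : tr.All fun p => Dead (kap TF.TC) C (pk p) ∧ Vl (Gp 73 TF.TC) (Ce 73 TF.TC) (pk p))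
    {e : List (List ℕ)} (he : ∀ F M, C' F → Mdl (tb (le_refl 73)) F M → ∀ c ∈ e, Ho M c) {f : ℕ → List ℕ}
    (hf : ∀ F M, C' F → Mdl (tb (le_refl 73)) F M → ∀ c, Ho M (f c)) {t : PTr} {L : List (List ℕ)}
    (h : chT 73 73 TCm t L = true) (hL : ∀ P ∈ L, Wx e tr f P) :
    t.All fun p => Dead (kap TF.TC) C' (pk p) ∧ Vl (Gp 73 TF.TC) (Ce 73 TF.TC) (pk p) := by
  rw [tcm_eq] at h
  refine (PTr.all_of (acc := []) fun x hx => ?_).1
  obtain ⟨h1, h2⟩ := chL_spec h x hx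
  exact ⟨dead_wx hOk hCC hCr hCm hPT ht he hf h2 (hL _ h1), h2⟩

/-- the clauses of block X3 at level 1: code `4 (2 i)` : base clause `i`, `4 n + 1` : `n55C n`, `4 n + 2` : `harmC n` -/
def fam3 : ℕ → List ℕ := sel4 (bsC (eN 5) []) (n55C 73 TF.TB) (harmC 73 73 TF.TB) (fun _ => trv)

/-- the condition of block X3 -/
def Q3 (T : ℂ → Set (Fin 6)) : Prop := N55 T ∧ ND5 T

theorem fam3_ho {XF : Fr → XV 73} (F : Fr) (M : Md 2 73 73 (nbf 2 TF.TB)) (hF : CQ Q3 5 73 TF.TC F)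
    (hM : MdlX (tb (le_refl 73)) XF F M) (c : ℕ) : Ho M (fam3 c) := by
  obtain ⟨Y, a, hR⟩ := rdm_X hM
  refine sel4_ho (bsC_ho ?_ (fun l hl => absurd hl List.not_mem_nil)) (n55C_ho hR hF.q.1)
    (harmC_ho hR hF.q.2 (le_refl 73)) (fun _ => ho_trv M) c
  refine hM.ho (by decide +kernel) fun M0 h0 => eN_ho kap_zero gp_zero (by norm_num) (by norm_num) hF.cn h0

theorem crtF_nil {fam : ℕ → List ℕ} : ∀ P ∈ ([] : List (List ℕ)), CrtF 73 73 TBm TCm fam P :=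
  fun _ h => absurd h List.not_mem_nil

theorem crtF_cons {fam : ℕ → List ℕ} {cs : List ℕ} {P : List ℕ} {I : List (List ℕ)} {L : List (List ℕ)}
    (h : Pat 73 73 TBm TCm (cs.map fam) P I) (hL : ∀ P ∈ L, CrtF 73 73 TBm TCm fam P) :
    ∀ P' ∈ P :: L, CrtF 73 73 TBm TCm fam P' := by
  intro P' h'
  rcases List.mem_cons.1 h' with rfl | h'
  · exact ⟨cs, I, h⟩
  · exact hL _ h'

theorem ez_eN : EZ 31 = eN 5 := by decide +kernel

/-- **the tree of the certified patterns of level 1** -/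
theorem d1_of {t : PTr} {L : List (List ℕ)} (h : chT 73 73 TCm t L = true)
    (hL : ∀ P ∈ L, Crt 73 73 TBm TCm (EZ 31) P) : BlkS.D1 t := by
  rw [tcm_eq] at h hL
  rw [tbm_eq] at hL
  refine tr_all (B := tb (le_refl 73)) h hL (fun F hF => hF.ok) (fun F M hF hM => ?_)
  rw [ez_eN]
  exact eN_ho kap_zero gp_zero (by norm_num) (by norm_num) hF hM

end Vale.Agent.P032.H286.E
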